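import Vale.Agent.P246.Dis.H956.Main

/-! # P246, disproof of D(2), block D4: presentation complexes with one 3-cell -/

set_option linter.all false

namespace Vale.Agent.P246.Dis.H956

open Vale.Agent.P246 Vale.Agent.P246.T Topology Set

variable {G X E : Type} [Group G] [TopologicalSpace X] [T2Space X] [TopologicalSpace E]
  [MulAction G E] [ContinuousConstSMul G E] {p : C(E, X)}

/-- the faces are linearly independent -/
theorem lmap_face_inj (hp : IsQuotientCoveringMap p G) {Pr : FinPresentation G}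
    (c : PresCx Pr p) (hc : c.Good) (W : WordCor) :
    Function.Injective (lmap (fun j => SC.mk G (c.zface W j)) :
      (Fin Pr.rels → ZG G) →ₗ[ZG G] SC G 2 E) := by
  have j2 : ∀ v, lmap (YH.z2 c W) v = 0 → v = 0 := fun v hv =>
    YH.lmap_inj (YH.z2 c W) (fun i => YH.SA hp (c.Y2 i) 2) (fun k i hki => by
      have h1 := YH.mdl2 c W MS.main CL.main fund hp hc (k + 1) k.2
      have h2 : YH.z2 c W k ∈ YH.SA hp (c.Y2 (k + 1)) 2 := h1.le 2 (by
        rw [YH.PP]
        exact Submodule.subset_span ⟨k, Nat.lt_succ_self _, rfl⟩)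
      refine YH.con_mono (preimage_mono ?_) 2 h2
      rintro y (hy | hy)
      · exact Or.inl hy
      · obtain ⟨l, hl, hy⟩ := mem_iUnion₂.1 hy
        exact Or.inr (mem_iUnion₂.2 ⟨l, by omega, hy⟩))
      (fun k r hr => (YH.step2 c W MS.main CL.main fund hp hc k
        (YH.mdl2 c W MS.main CL.main fund hp hc _ k.2.le)).2 r hr) hv
  exact (injective_iff_map_eq_zero _).2 j2

/-- The D(2) condition for a presentation complex with one 3-cell, whose boundary is `β`. -/
theorem d2_of_pres (hp : IsQuotientCoveringMap p G) {Pr : FinPresentation G}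
    (c : PresCx Pr p) (hc : c.Good) (W : WordCor) {B : Set X} {Φ : C(Dk 3, X)}
    (h : Attach 3 c.Y B Φ) {Ψ : C(Dk 3, E)} (hΨ : ∀ x, p (Ψ x) = Φ x) {ζ : Ch 3 (Dk 3)}
    (hζ : IsFund 3 ζ) (β : Fin Pr.rels → ZG G) (y : Ch 3 E) (hy : y ∈ T.Con (p ⁻¹' c.Y) 3)
    (hβ : bd 2 (push Ψ 3 ζ) = (lmap (fun j => SC.mk G (c.zface W j)) β).un + bd 2 y)
    (lam : (Fin Pr.rels → ZG G) →ₗ[ZG G] ZG G) (hlam : lam β = 1)
    [SimplyConnectedSpace (p ⁻¹' B : Set E)] : D2Condition B := by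
  have hM : YH.Mdl hp c.Y (YH.PP c W Pr.gens Pr.rels) :=
    YH.mdl2 c W MS.main CL.main fund hp hc _ le_rfl
  have hr2 : YH.PP c W Pr.gens Pr.rels 2 =
      LinearMap.range (lmap (fun j => SC.mk G (c.zface W j)) :
        (Fin Pr.rels → ZG G) →ₗ[ZG G] SC G 2 E) := by
    rw [YH.PP, YH.image_lt_self, ← Fintype.range_linearCombination]
    rfl
  have hinj := lmap_face_inj hp c hc W
  let e := LinearEquiv.ofInjective (lmap (fun j => SC.mk G (c.zface W j)) :
        (Fin Pr.rels → ZG G) →ₗ[ZG G] SC G 2 E) hinj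
  let z : SC G 3 E := SC.mk G (push Ψ 3 ζ) - SC.mk G y
  have hdz : SC.d G 2 E z = lmap (fun j => SC.mk G (c.zface W j)) β := by
    apply SC.un_inj
    rw [map_sub, SC.un_sub, SC.un_d, SC.un_d, SC.un_mk, SC.un_mk, hβ, add_sub_cancel_right]
  have hz : z - SC.mk G (push Ψ 3 ζ) ∈ YH.SA hp c.Y 3 := by
    have : z - SC.mk G (push Ψ 3 ζ) = -SC.mk G y := by
      change SC.mk G (push Ψ 3 ζ) - SC.mk G y - SC.mk G (push Ψ 3 ζ) = _
      abel
    rw [this]
    exact Submodule.neg_mem _ hy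
  have hzP : SC.d G 2 E z ∈ YH.PP c W Pr.gens Pr.rels 2 := by
    rw [hdz, hr2]
    exact ⟨β, rfl⟩
  refine d2_of_attach hp (YH.isClosed_Y2 c _) h hΨ hζ hM (fun n hn => ?_) hz hzP
    (lam.comp (e.symm.toLinearMap.comp (LinearEquiv.ofEq _ _ hr2).toLinearMap)) ?_
  · obtain ⟨m, rfl⟩ : ∃ m, n = m + 3 := ⟨n - 3, by omega⟩
    rfl
  · rw [LinearMap.comp_apply, LinearMap.comp_apply]
    have h1 : (LinearEquiv.ofEq _ _ hr2).toLinearMap ⟨SC.d G 2 E z, hzP⟩ = e β :=
      Subtype.ext hdz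
    rw [h1]
    change lam (e.symm (e β)) = 1
    rw [LinearEquiv.symm_apply_apply, hlam]

end Vale.Agent.P246.Dis.H956
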