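import Vale.Agent.P246.T.YH
import Vale.Agent.P246.T.A1

/-! # P246, disproof of D(2): the chain level of the D(2) condition, algebra -/

namespace Vale.Agent.P246.Dis.H956

open Vale.Agent.P246 Vale.Agent.P246.T

section Alg

variable {R : Type} [Ring R] {S : ℕ → Type} [∀ n, AddCommGroup (S n)] [∀ n, Module R (S n)]
  {d : ∀ n, S (n + 1) →ₗ[R] S n}

/-- transfer of a model along injective maps -/
theorem transfer {S' : ℕ → Type} [∀ n, AddCommGroup (S' n)] [∀ n, Module R (S' n)]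
    {d' : ∀ n, S' (n + 1) →ₗ[R] S' n} {A Q : ∀ n, Submodule R (S n)} (hQ : IsModel S d A Q)
    (i : ∀ n, S' n →ₗ[R] S n) (hi : ∀ n, Function.Injective (i n))
    (hr : ∀ n, LinearMap.range (i n) = A n) (hd : ∀ n x, d n (i (n + 1) x) = i n (d' n x)) :
    IsModel S' d' (fun _ => ⊤) (fun n => (Q n).comap (i n)) := by
  have hex : ∀ n (x : S n), x ∈ A n → ∃ x', i n x' = x := fun n x hx => by
    rw [← hr] at hx; exact hx
  have hcyc : ∀ n (x : S' n), DCyc S d n (i n x) ↔ DCyc S' d' n x := by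
    intro n x
    cases n with
    | zero => exact Iff.rfl
    | succ n =>
      change d n (i (n + 1) x) = 0 ↔ d' n x = 0
      rw [hd]
      exact map_eq_zero_iff _ (hi n)
  constructor
  · exact fun n => le_top
  · intro n x hx
    change i n (d' n x) ∈ Q n
    rw [← hd]
    exact hQ.d_mem n _ hx
  · rintro n x hx hc ⟨y, -, hy⟩
    obtain ⟨y', hy', h⟩ := hQ.inj n (i n x) hx ((hcyc n x).2 hc)
      ⟨i (n + 1) y, by rw [← hr]; exact ⟨y, rfl⟩, by rw [hd, hy]⟩
    obtain ⟨y'', rfl⟩ := hex (n + 1) y' (hQ.le _ hy')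
    refine ⟨y'', hy', hi n ?_⟩
    rw [← hd, h]
  · intro n x _ hc
    obtain ⟨y, hy, hyc, z, hz, h⟩ := hQ.surj n (i n x) (by rw [← hr]; exact ⟨x, rfl⟩)
      ((hcyc n x).2 hc)
    obtain ⟨y', rfl⟩ := hex n y (hQ.le _ hy)
    obtain ⟨z', rfl⟩ := hex (n + 1) z hz
    refine ⟨y', hy, (hcyc n y').1 hyc, z', trivial, hi n ?_⟩
    rw [h, map_add, hd]

variable {P : ∀ n, Submodule R (S n)}

/-- acyclicity in high degrees -/
theorem high (hM : IsModel S d (fun _ => ⊤) P) {m : ℕ} (z : S (m + 1))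
    (hz : P (m + 1) = Submodule.span R {z}) (hP : ∀ n, m + 1 < n → P n = ⊥)
    (hzP : d m z ∈ P m) (lam : P m →ₗ[R] R) (hlam : lam ⟨d m z, hzP⟩ = 1) (n : ℕ) (hn : m ≤ n)
    (x : S (n + 1)) (hx : d n x = 0) : ∃ y, d (n + 1) y = x := by
  obtain ⟨y, hy, hyc, w, -, h⟩ := hM.surj (n + 1) x trivial hx
  have hy0 : y = 0 := by
    rcases Nat.eq_or_lt_of_le hn with rfl | hlt
    · rw [hz] at hy
      obtain ⟨r, rfl⟩ := Submodule.mem_span_singleton.1 hy
      have h1 : r • d m z = 0 := by rw [← map_smul]; exact hyc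
      have h2 : lam (r • ⟨d m z, hzP⟩) = 0 := by
        have : (r • (⟨d m z, hzP⟩ : P m)) = 0 := Subtype.ext h1
        rw [this, map_zero]
      rw [map_smul, hlam, smul_eq_mul, mul_one] at h2
      rw [h2, zero_smul]
    · rw [hP (n + 1) (by omega)] at hy
      exact (Submodule.mem_bot R).1 hy
  exact ⟨w, by rw [h, hy0, zero_add]⟩

/-- vanishing of the cohomology in degree `m + 1` -/
theorem coh_zero (hd : ∀ n x, d n (d (n + 1) x) = 0) (hM : IsModel S d (fun _ => ⊤) P)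
    (hS : ∀ n, Module.Projective R (S n)) {m : ℕ} (z : S (m + 1))
    (hz : P (m + 1) = Submodule.span R {z}) (hzP : d m z ∈ P m) (lam : P m →ₗ[R] R)
    (hlam : lam ⟨d m z, hzP⟩ = 1) {M : Type} [AddCommGroup M] [Module R M]
    (f : S (m + 1) →ₗ[R] M) (hf : ∀ x, f (d (m + 1) x) = 0) :
    ∃ h : S m →ₗ[R] M, ∀ x, f x = h (d m x) := by
  obtain ⟨g, H, h0, h1⟩ := A1x.exists_g hd hM hS
  have hgd : ∀ m (x : S (m + 1)), (g m (d m x)).1 = d m (g (m + 1) x).1 := by
    intro m x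
    rw [← h1 m x, map_add, map_add, hd, add_zero]
    cases m with
    | zero => exact (h0 _).symm
    | succ m => rw [← h1 m (d (m + 1) x), hd, map_zero, add_zero]
  -- the cochain on the model
  have key : ∀ x : P (m + 1), f x.1 = lam ⟨d m x.1, hM.d_mem m x.1 x.2⟩ • f z := by
    intro x
    obtain ⟨r, hr⟩ := Submodule.mem_span_singleton.1 (hz.le x.2)
    have e : (⟨d m x.1, hM.d_mem m x.1 x.2⟩ : P m) = r • ⟨d m z, hzP⟩ := by
      apply Subtype.ext
      change d m x.1 = r • d m z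
      rw [← hr, map_smul]
    rw [e, map_smul, hlam, smul_eq_mul, mul_one, ← hr, map_smul]
  refine ⟨(LinearMap.toSpanSingleton R M (f z)).comp (lam.comp (g m)) -
    f.comp (H m), fun x => ?_⟩
  have e1 : f (g (m + 1) x).1 = f x + f (H m (d m x)) := by
    rw [← h1 m x, map_add, map_add, hf, add_zero]
  have e2 : f (g (m + 1) x).1 = lam (g m (d m x)) • f z := by
    rw [key]
    congr 2
    exact Subtype.ext (hgd m x).symm
  change f x = lam (g m (d m x)) • f z - f (H m (d m x))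
  rw [← e2, e1, add_sub_cancel_right]

end Alg

end Vale.Agent.P246.Dis.H956
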