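import Vale.Agent.P246.T.AC

/-! # P246, disproof of D(2): the D(2) condition from an action on the universal cover -/

set_option linter.all false

namespace Vale.Agent.P246.Dis.H956

open Vale.Agent.P246 Vale.Agent.P246.T Topology Set

variable {G X E : Type} [Group G] [TopologicalSpace X] [TopologicalSpace E] [MulAction G E]
  [ContinuousConstSMul G E] {p : C(E, X)}

/-- the deck transformation of a group element -/
def toDeck (hp : IsQuotientCoveringMap p G) : G →* Deck p where
  toFun g := ⟨Homeomorph.smul g, fun x => hp.map_smul g⟩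
  map_one' := Subtype.ext (Homeomorph.ext fun x => one_smul G x)
  map_mul' g h := Subtype.ext (Homeomorph.ext fun x => mul_smul g h x)

theorem toDeck_apply (hp : IsQuotientCoveringMap p G) (g : G) (x : E) :
    (toDeck hp g).1 x = g • x := rfl

theorem toDeck_bijective [PreconnectedSpace E] [Nonempty E] (hp : IsQuotientCoveringMap p G) :
    Function.Bijective (toDeck hp) := by
  obtain ⟨e⟩ : Nonempty E := inferInstance
  constructor
  · intro g h hgh
    have := hp.isCancelSMul
    refine IsCancelSMul.right_cancel g h e ?_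
    rw [← toDeck_apply hp, ← toDeck_apply hp, hgh]
  · intro d
    obtain ⟨g, hg⟩ := hp.apply_eq_iff_mem_orbit.1 (d.2 e)
    refine ⟨g, Subtype.ext (Homeomorph.ext fun x => ?_)⟩
    have h := AC.lift_unique hp.isCoveringMap (g := (toDeck hp g).1) (g' := d.1)
      (toDeck hp g).1.continuous d.1.continuous (fun x => by rw [(toDeck hp g).2, d.2]) e hg
    exact congrFun h x

/-- The D(2) condition, from the action on the universal cover. -/
theorem d2Condition_of [SimplyConnectedSpace E] (hp : IsQuotientCoveringMap p G)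
    (hH : ∀ i, 2 ≤ i → ∀ c : Ch (i + 1) E, bd i c = 0 → ∃ b : Ch (i + 2) E, bd (i + 1) b = c)
    (h3 : H3G G E) : D2Condition X := by
  refine ⟨E, inferInstance, p, hp.isCoveringMap, inferInstance, hH, ?_⟩
  intro M _ _ _ f hf hcob
  let φ : G ≃* Deck p := MulEquiv.ofBijective (toDeck hp) (toDeck_bijective hp)
  let R : ZG G ≃+* ZG (Deck p) := (MonoidAlgebra.domCongr ℤ ℤ φ).toRingEquiv
  let hM : Module (ZG G) M := Module.compHom M R.toRingHom
  have hsm : ∀ (r : ZG G) (m : M), r • m = R r • m := fun _ _ => rfl
  have hR : ∀ d : G, R (elt d) = elt (φ d) := fun d =>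
    MonoidAlgebra.domCongr_single (R := ℤ) φ d (1 : ℤ)
  have hfin : Module.Finite (ZG G) M := by
    obtain ⟨s, hs⟩ := Module.Finite.fg_top (R := ZG (Deck p)) (M := M)
    refine ⟨⟨s, eq_top_iff.2 fun m _ => ?_⟩⟩
    have hm : m ∈ Submodule.span (ZG (Deck p)) (s : Set M) := by rw [hs]; trivial
    induction hm using Submodule.span_induction with
    | mem m hm => exact Submodule.subset_span hm
    | zero => exact Submodule.zero_mem _
    | add a b _ _ ha hb => exact Submodule.add_mem _ (ha trivial) (hb trivial)
    | smul r a _ ha =>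
      have h1 : r • a = R.symm r • a := by rw [hsm, RingEquiv.apply_symm_apply]
      rw [h1]
      exact Submodule.smul_mem _ _ (ha trivial)
  have hmap : ∀ {n : ℕ} (g : G) (σ : C(Dl n, E)), deckMap (φ g) σ = (gm g).comp σ :=
    fun g σ => rfl
  obtain ⟨h, h1, h2⟩ := h3 M f (fun g σ => by rw [← hmap, hf, hsm, hR]) hcob
  refine ⟨h, fun d σ => ?_, h2⟩
  have h4 := h1 (φ.symm d) σ
  rw [← hmap, hsm, hR, MulEquiv.apply_symm_apply] at h4
  exact h4

end Vale.Agent.P246.Dis.H956
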