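import Vale.Agent.P246.T.YH
import Vale.Agent.P246.T.BS

/-! # P246, disproof of D(2): restriction of a quotient covering to the preimage of a subset -/

set_option linter.all false

namespace Vale.Agent.P246.Dis.H956

open Vale.Agent.P246 Vale.Agent.P246.T Topology Set

variable {G X E : Type} [Group G] [TopologicalSpace X] [TopologicalSpace E] [MulAction G E]
  [ContinuousConstSMul G E] {p : C(E, X)}

/-- the action on the preimage of a set -/
abbrev resAct (hp : IsQuotientCoveringMap p G) (B : Set X) : MulAction G (p ⁻¹' B : Set E) where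
  smul g x := ⟨g • x.1, YH.inv hp B g x.1 x.2⟩
  one_smul x := Subtype.ext (one_smul G x.1)
  mul_smul g h x := Subtype.ext (mul_smul g h x.1)

theorem resAct_coe (hp : IsQuotientCoveringMap p G) (B : Set X) (g : G)
    (x : (p ⁻¹' B : Set E)) : (((resAct hp B).toSMul.smul g x : (p ⁻¹' B : Set E)) : E) =
      g • (x : E) := rfl

/-- the restricted covering -/
def resMap (p : C(E, X)) (B : Set X) : C((p ⁻¹' B : Set E), B) :=
  ⟨B.restrictPreimage p, p.continuous.restrictPreimage⟩

theorem resMap_coe (p : C(E, X)) (B : Set X) (x : (p ⁻¹' B : Set E)) :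
    (resMap p B x : X) = p x := rfl

theorem resCont (hp : IsQuotientCoveringMap p G) (B : Set X) :
    letI := resAct hp B
    ContinuousConstSMul G (p ⁻¹' B : Set E) :=
  letI := resAct hp B
  ⟨fun g => Continuous.subtype_mk (((continuous_const_smul g).comp continuous_subtype_val)) _⟩

theorem res_isCoveringMap (hp : IsQuotientCoveringMap p G) (B : Set X) :
    IsCoveringMap (resMap p B) := by
  have h : IsCoveringMapOn p B := (isCoveringMap_iff_isCoveringMapOn_univ.1
    hp.isCoveringMap).mono (subset_univ _)
  exact h.isCoveringMap_restrictPreimage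

theorem res_isQuotientCoveringMap (hp : IsQuotientCoveringMap p G) (B : Set X) :
    letI := resAct hp B
    IsQuotientCoveringMap (resMap p B) G := by
  letI := resAct hp B
  rw [isQuotientCoveringMap_iff_isCoveringMap_and]
  refine ⟨res_isCoveringMap hp B, ?_, resCont hp B, ?_, ?_⟩
  · rintro ⟨x, hx⟩
    obtain ⟨e, rfl⟩ := hp.surjective x
    exact ⟨⟨e, hx⟩, rfl⟩
  · have := hp.isCancelSMul
    exact { left_cancel' := fun g x y h => Subtype.ext (smul_left_cancel g (congrArg Subtype.val h))
            right_cancel' := fun g h x e => IsCancelSMul.right_cancel g h x.1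
              (congrArg Subtype.val e) }
  · intro x y
    have h1 : resMap p B x = resMap p B y ↔ p x.1 = p y.1 := Subtype.ext_iff
    rw [h1, hp.apply_eq_iff_mem_orbit]
    constructor
    · rintro ⟨g, hg⟩
      exact ⟨g, Subtype.ext hg⟩
    · rintro ⟨g, hg⟩
      exact ⟨g, congrArg Subtype.val hg⟩

/-- the inclusion on chains -/
noncomputable def incl (hp : IsQuotientCoveringMap p G) (B : Set X) (n : ℕ) :
    letI := resAct hp B
    letI := resCont hp B
    SC G n (p ⁻¹' B : Set E) →ₗ[ZG G] SC G n E :=
  letI := resAct hp B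
  letI := resCont hp B
  { toFun := fun c => SC.mk G (push (BS.sub (p ⁻¹' B)) n c.un)
    map_add' := fun a b => map_add (push (BS.sub (p ⁻¹' B)) n) a.un b.un
    map_smul' := fun r c => by
      apply SC.un_inj
      rw [RingHom.id_apply, SC.un_smul, SC.un_mk, SC.un_smul, SC.un_mk, Finsupp.sum, Finsupp.sum,
        map_sum]
      refine Finset.sum_congr rfl fun g _ => ?_
      rw [map_smul, ← push_comp, ← push_comp]
      rfl }

theorem incl_un (hp : IsQuotientCoveringMap p G) (B : Set X) (n : ℕ) :
    letI := resAct hp B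
    letI := resCont hp B
    ∀ c : SC G n (p ⁻¹' B : Set E), (incl hp B n c).un = push (BS.sub (p ⁻¹' B)) n c.un :=
  fun _ => rfl

theorem incl_injective (hp : IsQuotientCoveringMap p G) (B : Set X) (n : ℕ) :
    letI := resAct hp B
    letI := resCont hp B
    Function.Injective (incl hp B n) := fun _ _ h => BS.push_sub_injective (p ⁻¹' B) n h

theorem incl_range (hp : IsQuotientCoveringMap p G) (B : Set X) (n : ℕ) :
    letI := resAct hp B
    letI := resCont hp B
    LinearMap.range (incl hp B n) = YH.SA hp B n := by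
  letI := resAct hp B
  letI := resCont hp B
  ext x
  constructor
  · rintro ⟨c, rfl⟩
    rw [YH.mem_SA, incl_un]
    refine push_mem (A := univ) (fun y _ => y.2) ?_
    rw [T.Con, Finsupp.mem_supported]
    exact fun σ _ y => mem_univ _
  · intro hx
    obtain ⟨b, hb⟩ := BS.exists_push (S := p ⁻¹' B) (YH.mem_SA.1 hx)
    exact ⟨SC.mk G b, SC.un_inj hb⟩

theorem incl_d (hp : IsQuotientCoveringMap p G) (B : Set X) (n : ℕ) :
    letI := resAct hp B
    letI := resCont hp B
    ∀ x : SC G (n + 1) (p ⁻¹' B : Set E), SC.d G n E (incl hp B (n + 1) x) =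
      incl hp B n (SC.d G n (p ⁻¹' B : Set E) x) := by
  letI := resAct hp B
  letI := resCont hp B
  intro x
  apply SC.un_inj
  rw [SC.un_d, incl_un, incl_un, push_bd]
  rfl

end Vale.Agent.P246.Dis.H956
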