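import Vale.Agent.P246.T.Fin
import Vale.Agent.P246.Dis.H956.Alg
import Vale.Agent.P246.Dis.H956.Res
import Vale.Agent.P246.Dis.H956.Cond

/-! # P246, disproof of D(2), block D4: the D(2) condition for a complex with one 3-cell whose
boundary is part of a basis -/

set_option linter.all false

namespace Vale.Agent.P246.Dis.H956

open Vale.Agent.P246 Vale.Agent.P246.T Topology Set

variable {G X E : Type} [Group G] [TopologicalSpace X] [T2Space X] [TopologicalSpace E]
  [MulAction G E] [ContinuousConstSMul G E] {p : C(E, X)}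

/-- a model of the chains of `p ⁻¹' B`, as chains of the subspace -/
theorem res_model (hp : IsQuotientCoveringMap p G) {B : Set X}
    {P : ∀ n, Submodule (ZG G) (SC G n E)} (hP : YH.Mdl hp B P) :
    letI := resAct hp B
    letI := resCont hp B
    IsModel (fun n => SC G n (p ⁻¹' B : Set E)) (fun n => SC.d G n (p ⁻¹' B : Set E))
      (fun _ => ⊤) (fun n => (P n).comap (incl hp B n)) := by
  letI := resAct hp B
  letI := resCont hp B
  exact transfer (S := fun n => SC G n E) (d := fun n => SC.d G n E)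
    (S' := fun n => SC G n (p ⁻¹' B : Set E)) (d' := fun n => SC.d G n (p ⁻¹' B : Set E)) hP
    (fun n => incl hp B n) (fun n => incl_injective hp B n) (fun n => incl_range hp B n)
    (fun n x => incl_d hp B n x)

/-- Homology and cohomology in degrees at least three, from a model. -/
theorem of_model (hp : IsQuotientCoveringMap p G) {B : Set X}
    {P : ∀ n, Submodule (ZG G) (SC G n E)} (hP : YH.Mdl hp B P) {z : SC G 3 E}
    (hz : P 3 = Submodule.span (ZG G) {z}) (hP4 : ∀ n, 3 < n → P n = ⊥)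
    (hzP : SC.d G 2 E z ∈ P 2) (lam : P 2 →ₗ[ZG G] ZG G)
    (hlam : lam ⟨SC.d G 2 E z, hzP⟩ = 1) :
    letI := resAct hp B
    letI := resCont hp B
    (∀ i, 2 ≤ i → ∀ c : Ch (i + 1) (p ⁻¹' B : Set E), bd i c = 0 →
      ∃ b : Ch (i + 2) (p ⁻¹' B : Set E), bd (i + 1) b = c) ∧
    H3G G (p ⁻¹' B : Set E) := by
  letI := resAct hp B
  letI := resCont hp B
  have hq := res_isQuotientCoveringMap hp B
  have hM := res_model hp hP
  -- the generator, in the subspace
  have hzB : z ∈ LinearMap.range (incl hp B 3) := by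
    rw [incl_range]
    refine hP.le 3 ?_
    rw [hz]
    exact Submodule.mem_span_singleton_self z
  obtain ⟨z', hz'⟩ := hzB
  have hspan : (P 3).comap (incl hp B 3) = Submodule.span (ZG G) {z'} := by
    ext x
    rw [Submodule.mem_comap, hz, Submodule.mem_span_singleton, Submodule.mem_span_singleton]
    constructor
    · rintro ⟨r, hr⟩
      refine ⟨r, incl_injective hp B 3 ?_⟩
      rw [map_smul, hz', hr]
    · rintro ⟨r, rfl⟩
      exact ⟨r, by rw [map_smul, hz']⟩
  have hbot : ∀ n, 3 < n → (P n).comap (incl hp B n) = ⊥ := by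
    intro n hn
    rw [hP4 n hn]
    exact LinearMap.ker_eq_bot.2 (incl_injective hp B n)
  have hzP' : SC.d G 2 (p ⁻¹' B : Set E) z' ∈ (P 2).comap (incl hp B 2) := by
    rw [Submodule.mem_comap, ← incl_d, hz']
    exact hzP
  let j : ((P 2).comap (incl hp B 2)) →ₗ[ZG G] P 2 :=
    ((incl hp B 2).comp (Submodule.subtype _)).codRestrict (P 2) fun x => x.2
  have hlam' : (lam.comp j) ⟨SC.d G 2 (p ⁻¹' B : Set E) z', hzP'⟩ = 1 := by
    rw [← hlam, LinearMap.comp_apply]
    congr 1
    apply Subtype.ext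
    change incl hp B 2 (SC.d G 2 (p ⁻¹' B : Set E) z') = SC.d G 2 E z
    rw [← incl_d, hz']
  constructor
  · intro i hi c hc
    obtain ⟨y, hy⟩ := high hM z' hspan hbot hzP' (lam.comp j) hlam' i hi (SC.mk G c) hc
    exact ⟨y.un, hy⟩
  · intro M _ _ _ f hf hcob
    have hfree : ∀ n, Module.Projective (ZG G) (SC G n (p ⁻¹' B : Set E)) := fun n => by
      have := A1f.free hq n
      infer_instance
    obtain ⟨h, hh⟩ := coh_zero (fun n x => A1x.d_d n x) hM hfree z' hspan hzP' (lam.comp j) hlam'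
      (A1x.toLin 3 f hf) (fun x => by
        refine A1x.lin_ext 4 (f := (A1x.toLin 3 f hf).comp (SC.d G 3 (p ⁻¹' B : Set E))) (g := 0)
          (fun τ => ?_) x
        rw [LinearMap.comp_apply, A1x.lin_bd, LinearMap.zero_apply]
        simp only [A1x.toLin_single]
        exact hcob τ)
    refine ⟨fun σ => h (SC.mk G (Finsupp.single σ 1)), fun g σ => A1x.lin_single 2 h g σ,
      fun σ => ?_⟩
    rw [← A1x.lin_bd, ← hh, A1x.toLin_single]

/-- The D(2) condition for `B`, which is obtained from `A` by attaching one 3-cell. -/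
theorem d2_of_attach (hp : IsQuotientCoveringMap p G) {A B : Set X} (hA : IsClosed A)
    {Φ : C(Dk 3, X)} (h : Attach 3 A B Φ) {Ψ : C(Dk 3, E)} (hΨ : ∀ x, p (Ψ x) = Φ x)
    {ζ : Ch 3 (Dk 3)} (hζ : IsFund 3 ζ) {P : ∀ n, Submodule (ZG G) (SC G n E)}
    (hP : YH.Mdl hp A P) (hP3 : ∀ n, 3 ≤ n → P n = ⊥) {z : SC G 3 E}
    (hz : z - SC.mk G (push Ψ 3 ζ) ∈ YH.SA hp A 3) (hzP : SC.d G 2 E z ∈ P 2)
    (lam : P 2 →ₗ[ZG G] ZG G) (hlam : lam ⟨SC.d G 2 E z, hzP⟩ = 1)
    [SimplyConnectedSpace (p ⁻¹' B : Set E)] : D2Condition B := by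
  obtain ⟨hM, -⟩ := YH.step MS.main CL.main hp hA h hΨ hζ hP hz hzP
  set Q := Function.update P 3 (P 3 ⊔ Submodule.span (ZG G) {z}) with hQ
  have hQ3 : Q 3 = Submodule.span (ZG G) {z} := by
    rw [hQ, Function.update_self, hP3 3 le_rfl, bot_sup_eq]
  have hQ2 : Q 2 = P 2 := by rw [hQ, Function.update_of_ne (by norm_num)]
  have hQ4 : ∀ n, 3 < n → Q n = ⊥ := fun n hn => by
    rw [hQ, Function.update_of_ne (by omega)]
    exact hP3 n hn.le
  have hzQ : SC.d G 2 E z ∈ Q 2 := hQ2 ▸ hzP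
  letI := resAct hp B
  letI := resCont hp B
  obtain ⟨h1, h2⟩ := of_model hp hM hQ3 hQ4 hzQ
    (lam.comp (LinearEquiv.ofEq _ _ hQ2).toLinearMap) (by
      rw [LinearMap.comp_apply, ← hlam]
      rfl)
  exact d2Condition_of (res_isQuotientCoveringMap hp B) h1 h2

end Vale.Agent.P246.Dis.H956
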